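import Mathlib

/-! P260, block [B1]: Euler characteristic of a normal subgroup of `q`-power index, by Shapiro's
lemma and the filtration of the coinduced module by trivial modules. -/

open CategoryTheory Representation

namespace Vale.Agent.P260.B

section LA

variable {k : Type*} [Field k]

theorem count {A' A B C A'' : Type*} [AddCommGroup A'] [Module k A'] [AddCommGroup A] [Module k A]
    [AddCommGroup B] [Module k B] [AddCommGroup C] [Module k C] [AddCommGroup A''] [Module k A'']
    (d : A' →ₗ[k] A) (a : A →ₗ[k] B) (b : B →ₗ[k] C) (d' : C →ₗ[k] A'')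
    (h1 : Function.Exact d a) (h2 : Function.Exact a b) (h3 : Function.Exact b d')
    [Module.Finite k A] [Module.Finite k C] :
    Module.Finite k B ∧
      Module.finrank k B + Module.finrank k (LinearMap.range d) +
        Module.finrank k (LinearMap.range d') = Module.finrank k A + Module.finrank k C := by
  have e1 : LinearMap.ker a = LinearMap.range d := (LinearMap.exact_iff.1 h1)
  have e2 : LinearMap.ker b = LinearMap.range a := (LinearMap.exact_iff.1 h2)
  have e3 : LinearMap.ker d' = LinearMap.range b := (LinearMap.exact_iff.1 h3)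
  have hBfin : Module.Finite k B := by
    have i1 : Module.Finite k (LinearMap.ker b) := by rw [e2]; infer_instance
    have i2 : Module.Finite k (B ⧸ LinearMap.ker b) :=
      Module.Finite.equiv (LinearMap.quotKerEquivRange b).symm
    exact Module.Finite.of_submodule_quotient (LinearMap.ker b)
  refine ⟨hBfin, ?_⟩
  have r1 := LinearMap.finrank_range_add_finrank_ker a
  have r2 := LinearMap.finrank_range_add_finrank_ker b
  have r3 := LinearMap.finrank_range_add_finrank_ker d'
  rw [e1] at r1
  rw [e2] at r2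
  rw [e3] at r3
  omega

end LA

section Rep

variable {k G : Type} [Field k] [Group G]

/-- dimension of `H^i(G; V)` -/
noncomputable def hh (V : Rep k G) (i : ℕ) : ℕ := Module.finrank k (groupCohomology V i)

/-- `H^i(G; V)` is finite dimensional for `i ≤ 4` and zero for `i = 5`. -/
def Fin4 (V : Rep k G) : Prop :=
  (∀ i ≤ 4, Module.Finite k (groupCohomology V i)) ∧ Subsingleton (groupCohomology V 5)

/-- Euler characteristic, truncated at degree 4 -/
noncomputable def chi (V : Rep k G) : ℤ :=
  (hh V 0 : ℤ) - hh V 1 + hh V 2 - hh V 3 + hh V 4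

open groupCohomology

theorem chi_add {X : ShortComplex (Rep k G)} (hX : X.ShortExact) (h1 : Fin4 X.X₁)
    (h3 : Fin4 X.X₃) : Fin4 X.X₂ ∧ chi X.X₂ = chi X.X₁ + chi X.X₃ := by
  -- the maps
  let a : ∀ i, groupCohomology X.X₁ i →ₗ[k] groupCohomology X.X₂ i :=
    fun i => (groupCohomology.map (MonoidHom.id G) X.f i).hom
  let b : ∀ i, groupCohomology X.X₂ i →ₗ[k] groupCohomology X.X₃ i :=
    fun i => (groupCohomology.map (MonoidHom.id G) X.g i).hom
  let d : ∀ i, groupCohomology X.X₃ i →ₗ[k] groupCohomology X.X₁ (i + 1) :=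
    fun i => (groupCohomology.δ hX i (i + 1) rfl).hom
  have e1 : ∀ i, Function.Exact (d i) (a (i + 1)) := by
    intro i
    exact (ShortComplex.ShortExact.moduleCat_exact_iff_function_exact _).1
      (mapShortComplex₁_exact hX (i := i) (j := i + 1) rfl)
  have e2 : ∀ i, Function.Exact (a i) (b i) := by
    intro i
    exact (ShortComplex.ShortExact.moduleCat_exact_iff_function_exact _).1
      (mapShortComplex₂_exact hX i)
  have e3 : ∀ i, Function.Exact (b i) (d i) := by
    intro i
    exact (ShortComplex.ShortExact.moduleCat_exact_iff_function_exact _).1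
      (mapShortComplex₃_exact hX (i := i) (j := i + 1) rfl)
  have hm : Mono X.f := hX.mono_f
  have inj0 : Function.Injective (a 0) :=
    (ModuleCat.mono_iff_injective _).1 (inferInstance : Mono (groupCohomology.map
      (MonoidHom.id G) X.f 0))
  obtain ⟨f1, s1⟩ := h1
  obtain ⟨f3, s3⟩ := h3
  have F1 : ∀ i ≤ 4, Module.Finite k (groupCohomology X.X₁ i) := f1
  have F3 : ∀ i ≤ 4, Module.Finite k (groupCohomology X.X₃ i) := f3
  have i10 := F1 0 (by norm_num)
  have i11 := F1 1 (by norm_num)
  have i12 := F1 2 (by norm_num)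
  have i13 := F1 3 (by norm_num)
  have i14 := F1 4 (by norm_num)
  have i30 := F3 0 (by norm_num)
  have i31 := F3 1 (by norm_num)
  have i32 := F3 2 (by norm_num)
  have i33 := F3 3 (by norm_num)
  have i34 := F3 4 (by norm_num)
  have c0 := count (0 : k →ₗ[k] groupCohomology X.X₁ 0) (a 0) (b 0) (d 0)
    (by
      rw [LinearMap.exact_iff, LinearMap.ker_eq_bot.2 inj0, LinearMap.range_zero]) (e2 0) (e3 0)
  have c1 := count (d 0) (a 1) (b 1) (d 1) (e1 0) (e2 1) (e3 1)
  have c2 := count (d 1) (a 2) (b 2) (d 2) (e1 1) (e2 2) (e3 2)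
  have c3 := count (d 2) (a 3) (b 3) (d 3) (e1 2) (e2 3) (e3 3)
  have c4 := count (d 3) (a 4) (b 4) (d 4) (e1 3) (e2 4) (e3 4)
  have z0 : Module.finrank k (LinearMap.range (0 : k →ₗ[k] groupCohomology X.X₁ 0)) = 0 := by
    rw [LinearMap.range_zero]; exact finrank_bot _ _
  have z4 : Module.finrank k (LinearMap.range (d 4)) = 0 := by
    have : d 4 = 0 := by
      ext x
      exact Subsingleton.elim _ _
    rw [this, LinearMap.range_zero]; exact finrank_bot _ _
  refine ⟨⟨?_, ?_⟩, ?_⟩
  · intro i hi
    interval_cases i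
    · exact c0.1
    · exact c1.1
    · exact c2.1
    · exact c3.1
    · exact c4.1
  · refine ⟨fun x y => ?_⟩
    have key : ∀ x : groupCohomology X.X₂ 5, x = 0 := by
      intro x
      obtain ⟨w, hw⟩ := (e2 5 x).1 (Subsingleton.elim _ _)
      rw [← hw, Subsingleton.elim w 0, map_zero]
    rw [key x, key y]
  · have g0 := c0.2
    have g1 := c1.2
    have g2 := c2.2
    have g3 := c3.2
    have g4 := c4.2
    unfold chi hh
    zify at g0 g1 g2 g3 g4 z0 z4
    linarith

/-- a nonzero invariant vector of a finite `q`-group acting on an `F_q`-space -/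
theorem exists_fixed {q : ℕ} [Fact q.Prime] {G : Type} [Group G] {V : Type} [AddCommGroup V]
    [Module (ZMod q) V] [Module.Finite (ZMod q) V] (ρ : Representation (ZMod q) G V) (m : ℕ)
    (hρ : ∀ g : G, ρ (g ^ q ^ m) = 1) (hV : 0 < Module.finrank (ZMod q) V) :
    ∃ v : V, v ≠ 0 ∧ ∀ g, ρ g v = v := by
  classical
  have : Finite V := Module.finite_of_finite (ZMod q)
  -- the permutation action
  let φ : G →* Equiv.Perm V :=
    { toFun := fun g =>
        { toFun := ρ g
          invFun := ρ g⁻¹
          left_inv := fun v => by simp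
          right_inv := fun v => by simp }
      map_one' := by ext v; simp
      map_mul' := fun a b => by ext v; simp }
  have hp : IsPGroup q φ.range := by
    rintro ⟨_, g, rfl⟩
    refine ⟨m, Subtype.ext ?_⟩
    rw [Subgroup.coe_pow]
    change φ g ^ q ^ m = 1
    rw [← map_pow]
    ext v
    change ρ (g ^ q ^ m) v = v
    rw [hρ g]; rfl
  have hcard : q ∣ Nat.card V := by
    rw [Module.natCard_eq_pow_finrank (K := ZMod q), Nat.card_zmod]
    exact dvd_pow_self _ hV.ne'
  have h0 : (0 : V) ∈ MulAction.fixedPoints φ.range V := by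
    rintro ⟨_, g, rfl⟩
    change ρ g 0 = 0
    exact map_zero _
  obtain ⟨v, hv, hne⟩ := hp.exists_fixed_point_of_prime_dvd_card_of_fixed_point V hcard h0
  exact ⟨v, hne.symm, fun g => hv ⟨φ g, g, rfl⟩⟩

theorem chi_fd {q : ℕ} [Fact q.Prime] {G : Type} [Group G] (m : ℕ)
    (h0 : Fin4 (Rep.trivial (ZMod q) G (ZMod q))) :
    ∀ (d : ℕ) (V : Rep.{0} (ZMod q) G), Module.Finite (ZMod q) V → Module.finrank (ZMod q) V = d →
      (∀ g : G, V.ρ (g ^ q ^ m) = 1) →
      Fin4 V ∧ chi V = d * chi (Rep.trivial (ZMod q) G (ZMod q)) := by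
  intro d
  induction d with
  | zero =>
    intro V hf hd _
    have hsub : Subsingleton V := Module.finrank_zero_iff.1 hd
    have hz : Limits.IsZero V := (Rep.isZero_iff (ZMod q) G V).2 hsub
    have hz' : ∀ i, Subsingleton (groupCohomology V i) := fun i =>
      ModuleCat.subsingleton_of_isZero
        ((groupCohomology.functor (ZMod q) G i).map_isZero hz)
    have hz'' : ∀ i, hh V i = 0 := fun i => Module.finrank_zero_of_subsingleton
    refine ⟨⟨fun i _ => inferInstance, hz' 5⟩, ?_⟩
    simp [chi, hz'']
  | succ d ih =>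
    intro V hf hd hρ
    obtain ⟨v, hv, hfix⟩ := exists_fixed V.ρ m hρ (by omega)
    let W : Submodule (ZMod q) V := Submodule.span (ZMod q) {v}
    have hW : ∀ g, W ≤ W.comap (V.ρ g) := by
      intro g
      rw [Submodule.span_le]
      intro w hw
      rw [Set.mem_singleton_iff] at hw
      subst hw
      change V.ρ g w ∈ W
      rw [hfix g]
      exact Submodule.subset_span rfl
    let f : Rep.trivial (ZMod q) G (ZMod q) ⟶ V :=
      Rep.ofHom ⟨LinearMap.toSpanSingleton (ZMod q) V v, fun g => by
          ext; simp [hfix g]⟩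
    have hf' : ∀ c : ZMod q, f.hom c = c • v := fun c => rfl
    let X : ShortComplex (Rep (ZMod q) G) :=
      { X₁ := Rep.trivial (ZMod q) G (ZMod q)
        X₂ := V
        X₃ := Rep.quotient V W hW
        f := f
        g := Rep.mkQ V W hW
        zero := by
          ext
          change W.mkQ (f.hom _) = 0
          rw [hf', Submodule.mkQ_apply, Submodule.Quotient.mk_eq_zero]
          exact W.smul_mem _ (Submodule.subset_span rfl) }
    have hkey : ∀ x : V, x ∈ W → ∃ c : ZMod q, c • v = x := fun x hx =>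
      Submodule.mem_span_singleton.1 hx
    have hX : X.ShortExact :=
      { exact := (forget₂ (Rep (ZMod q) G) (ModuleCat (ZMod q))).reflects_exact_of_faithful _ <|
          (ShortComplex.moduleCat_exact_iff _).2 fun x hx =>
            hkey x ((Submodule.Quotient.mk_eq_zero W).1 hx)
        mono_f := (Rep.mono_iff_injective _).2 fun a b h => by
          have h' : a • v = b • v := h
          have : (a - b) • v = 0 := by rw [sub_smul, h', sub_self]
          rcases smul_eq_zero.1 this with h2 | h2
          · exact sub_eq_zero.1 h2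
          · exact absurd h2 hv
        epi_g := (Rep.epi_iff_surjective _).2 <| Submodule.mkQ_surjective _ }
    have hW1 : Module.finrank (ZMod q) W = 1 := finrank_span_singleton hv
    have hq : Module.finrank (ZMod q) (V ⧸ W) = d := by
      have := Submodule.finrank_quotient_add_finrank W
      omega
    obtain ⟨i1, i2⟩ := ih (Rep.quotient V W hW) (inferInstanceAs (Module.Finite (ZMod q) (V ⧸ W)))
      hq (by
        intro g
        refine LinearMap.ext fun x => ?_
        obtain ⟨y, rfl⟩ := W.mkQ_surjective x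
        change W.mkQ (V.ρ (g ^ q ^ m) y) = W.mkQ y
        rw [hρ g]; rfl)
    obtain ⟨j1, j2⟩ := chi_add hX h0 i1
    refine ⟨j1, ?_⟩
    change chi X.X₂ = _
    rw [j2]
    change chi (Rep.trivial (ZMod q) G (ZMod q)) + chi (Rep.quotient V W hW) = _
    rw [i2]
    push_cast
    ring

/-- functions on the quotient are the coinduced module -/
noncomputable def coindEquiv (k : Type) [Field k] {G : Type} [Group G] (N : Subgroup G)
    [N.Normal] :
    ((G ⧸ N) → k) ≃ₗ[k] (Rep.coind N.subtype (Rep.trivial k N k)) where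
  toFun φ := ⟨fun g => φ (g : G ⧸ N), by
    rintro ⟨s, hs⟩ g
    change φ ((s * g : G) : G ⧸ N) = φ (g : G ⧸ N)
    congr 1
    rw [QuotientGroup.mk_mul, (QuotientGroup.eq_one_iff s).2 hs, one_mul]⟩
  map_add' φ ψ := rfl
  map_smul' c φ := rfl
  invFun f := fun x => f.1 x.out
  left_inv φ := by
    funext x
    change φ ((x.out : G) : G ⧸ N) = φ x
    rw [QuotientGroup.out_eq']
  right_inv f := by
    apply Subtype.ext
    funext g
    change f.1 ((g : G ⧸ N)).out = f.1 g
    obtain ⟨s, hs⟩ := QuotientGroup.mk_out_eq_mul N g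
    rw [hs]
    have h1 : g * s = (g * s * g⁻¹) * g := by group
    rw [h1]
    exact f.2 ⟨g * s * g⁻¹, ‹N.Normal›.conj_mem _ s.2 g⟩ g

theorem euler' {q : ℕ} [Fact q.Prime] {G : Type} [Group G]
    (h0 : Fin4 (Rep.trivial (ZMod q) G (ZMod q))) (N : Subgroup G) [N.Normal] (n : ℕ)
    (hN : N.index = q ^ n) :
    Fin4 (Rep.trivial (ZMod q) N (ZMod q)) ∧
      chi (Rep.trivial (ZMod q) N (ZMod q)) = q ^ n * chi (Rep.trivial (ZMod q) G (ZMod q)) := by
  have hpos : 0 < N.index := by rw [hN]; exact pow_pos (Fact.out (p := q.Prime)).pos n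
  have hfi : Finite (G ⧸ N) := Nat.finite_of_card_ne_zero (by
    rw [← Subgroup.index_eq_card]; exact hpos.ne')
  have : Fintype (G ⧸ N) := Fintype.ofFinite _
  set A : Rep (ZMod q) N := Rep.trivial (ZMod q) N (ZMod q) with hA
  have hfinV : Module.Finite (ZMod q) (Rep.coind N.subtype A) :=
    Module.Finite.equiv (coindEquiv (ZMod q) N)
  have hdim : Module.finrank (ZMod q) (Rep.coind N.subtype A) = q ^ n := by
    rw [← (coindEquiv (ZMod q) N).finrank_eq, Module.finrank_fintype_fun_eq_card,
      ← Nat.card_eq_fintype_card, ← Subgroup.index_eq_card, hN]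
  obtain ⟨c1, c2⟩ := chi_fd n h0 _ (Rep.coind N.subtype A) hfinV hdim (by
    intro g
    refine LinearMap.ext fun f => ?_
    apply Subtype.ext
    funext h
    change f.1 (h * g ^ q ^ n) = f.1 h
    have hg : g ^ q ^ n ∈ N := by
      rw [← hN]
      exact Subgroup.pow_index_mem N g
    have h1 : h * g ^ q ^ n = (h * g ^ q ^ n * h⁻¹) * h := by group
    rw [h1]
    exact f.2 ⟨h * g ^ q ^ n * h⁻¹, ‹N.Normal›.conj_mem _ hg h⟩ h)
  let e : ∀ i, groupCohomology (Rep.coind N.subtype A) i ≃ₗ[ZMod q] groupCohomology A i :=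
    fun i => (groupCohomology.coindIso A i).toLinearEquiv
  have he : ∀ i, hh A i = hh (Rep.coind N.subtype A) i := fun i => (e i).finrank_eq.symm
  refine ⟨⟨fun i hi => ?_, ?_⟩, ?_⟩
  · have := c1.1 i hi
    exact Module.Finite.equiv (e i)
  · have := c1.2
    exact (e 5).symm.toEquiv.subsingleton
  · have : chi A = chi (Rep.coind N.subtype A) := by simp only [chi, he]
    rw [this, c2]
    push_cast
    rfl

end Rep

end Vale.Agent.P260.B
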