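import Vale.Agent.P260.H679.Inj
import Vale.Agent.P260.H571.Table
import Vale.Agent.P260.Spec

/-! P260, block [B2a]: `dim H^2(N; k) ≤ dim Z_N - dim Zbar_N`. -/

namespace Vale.Agent.P260.B

open Vale.Agent.P239.M Vale.Agent.P239.M.SupA Vale.Agent.P260.H571 Module

section chains

variable {k : Type} [Field k] {G : Type} [Group G] (S : Finset G)

/-- types of `S`-small triangles -/
def TT : Type := {t : G × G // SmG S [1, t.1, t.2]}

/-- types of edges -/
def UU : Type := {u : G // u ∈ S}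

instance : Finite (UU S) := by unfold UU; infer_instance

theorem TT.mem (t : TT S) : t.1.1 ∈ S ∧ t.1.2 ∈ S ∧ t.1.1⁻¹ * t.1.2 ∈ S := by
  have h := t.2
  refine ⟨?_, ?_, ?_⟩
  · simpa using h 1 (by simp) t.1.1 (by simp)
  · simpa using h 1 (by simp) t.1.2 (by simp)
  · exact h t.1.1 (by simp) t.1.2 (by simp)

instance : Finite (TT S) := by
  refine Finite.of_injective (fun t : TT S => ((⟨t.1.1, (t.mem).1⟩, ⟨t.1.2, (t.mem).2.1⟩) :
    S × S)) ?_
  intro a b hab
  simp only [Prod.mk.injEq, Subtype.mk.injEq] at hab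
  exact Subtype.ext (Prod.ext hab.1 hab.2)

variable (k) in
/-- boundary table -/
noncomputable def bT (t : TT S) : G × UU S →₀ k :=
  Finsupp.single (t.1.1, ⟨t.1.1⁻¹ * t.1.2, t.mem.2.2⟩) 1 -
    Finsupp.single (1, ⟨t.1.2, t.mem.2.1⟩) 1 + Finsupp.single (1, ⟨t.1.1, t.mem.1⟩) 1

variable (k) in
/-- triangles as lists -/
noncomputable def θ : (G × TT S →₀ k) →ₗ[k] Ch k G :=
  Finsupp.lmapDomain k k (fun p => [p.1, p.1 * p.2.1.1, p.1 * p.2.1.2])

variable (k) in
/-- edges as lists -/
noncomputable def η : (G × UU S →₀ k) →ₗ[k] Ch k G :=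
  Finsupp.lmapDomain k k (fun p => [p.1, p.1 * p.2.1])

theorem η_D (c : G × TT S →₀ k) : η k S (D (bT k S) c) = bd (θ k S c) := by
  induction c using Finsupp.induction_linear with
  | zero => simp
  | add f g hf hg => simp only [map_add, hf, hg]
  | single p a =>
    obtain ⟨g, t⟩ := p
    rw [D_single, map_smul, θ, Finsupp.lmapDomain_apply, Finsupp.mapDomain_single, bd_single,
      bdL_three, η, Finsupp.lmapDomain_apply, bT, Finsupp.mapDomain_add, Finsupp.mapDomain_sub,
      Finsupp.mapDomain_add, Finsupp.mapDomain_sub]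
    simp only [Finsupp.mapDomain_single]
    congr 1
    simp [mul_assoc]

end chains

section pull

variable {k : Type} [Field k] {G : Type} [Group G] (N : Subgroup G) [N.Normal]

/-- an equivariant retraction `G → N` -/
noncomputable def rr (g : G) : N :=
  ⟨g * ((g : G ⧸ N).out)⁻¹ * ((1 : G) : G ⧸ N).out, by
    obtain ⟨s, hs⟩ := QuotientGroup.mk_out_eq_mul N g
    obtain ⟨c, hc⟩ := QuotientGroup.mk_out_eq_mul N (1 : G)
    rw [hs, hc]
    have h1 : g * (g * (s : G))⁻¹ * (1 * (c : G)) = (g * (s : G)⁻¹ * g⁻¹) * c := by group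
    rw [h1]
    exact N.mul_mem (‹N.Normal›.conj_mem _ (N.inv_mem s.2) g) c.2⟩

theorem rr_one : rr N 1 = 1 := by
  apply Subtype.ext
  simp [rr]

theorem mk_mul_left (n : N) (g : G) : (((n : G) * g : G) : G ⧸ N) = (g : G ⧸ N) := by
  rw [QuotientGroup.mk_mul, (QuotientGroup.eq_one_iff (n : G)).2 n.2, one_mul]

theorem rr_mul (n : N) (g : G) : rr N (n * g) = n * rr N g := by
  apply Subtype.ext
  simp only [rr, mk_mul_left, Subgroup.coe_mul]
  group

theorem rr_coe (n : N) : rr N (n : G) = n := by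
  have := rr_mul N n 1
  rwa [mul_one, rr_one, mul_one] at this

/-- the homogeneous cochain on `G` attached to `f : N × N → k` -/
noncomputable def FL (f : N × N → k) : List G → k
  | [x, y, z] => f ((rr N x)⁻¹ * rr N y, (rr N y)⁻¹ * rr N z)
  | _ => 0

/-- its linear extension -/
noncomputable def FF (f : N × N → k) : Ch k G →ₗ[k] k := ext (FL N f)

theorem FL_tr (f : N × N → k) (n : N) (l : List G) :
    FL N f (l.map fun x => (n : G) * x) = FL N f l := by
  rcases l with _ | ⟨x, _ | ⟨y, _ | ⟨z, _ | ⟨w, l⟩⟩⟩⟩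
  · rfl
  · rfl
  · rfl
  · simp only [List.map, FL, rr_mul]
    congr 2 <;> group
  · rfl

theorem FF_tr (f : N × N → k) (n : N) (c : Ch k G) : FF N f (tr (n : G) c) = FF N f c := by
  induction c using Finsupp.induction_linear with
  | zero => simp
  | add a b ha hb => rw [map_add, map_add, map_add, ha, hb]
  | single l r => rw [tr_single, FF, ext_single, ext_single, FL_tr]

/-- cocycle identity -/
theorem FF_bd (f : N × N → k) (hf : ∀ g h j : N, f (h, j) - f (g * h, j) + f (g, h * j) - f (g, h) = 0)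
    (c : Ch k G) (hc : Sup (fun l => l.length = 4) c) : FF N f (bd c) = 0 := by
  rw [FF, ext_bdL]
  rw [ext_congr (v := fun _ => (0 : k)) hc]
  · simp [Finsupp.linearCombination_apply]
  · intro l hl
    rcases l with _ | ⟨w, _ | ⟨x, _ | ⟨y, _ | ⟨z, _ | ⟨v, l⟩⟩⟩⟩⟩
    · simp at hl
    · simp at hl
    · simp at hl
    · simp at hl
    · rw [bdL, bdL_three]
      simp only [map_add, map_sub, cone_single, ext_single, one_smul, FL]
      have := hf ((rr N w)⁻¹ * rr N x) ((rr N x)⁻¹ * rr N y) ((rr N y)⁻¹ * rr N z)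
      have e1 : (rr N w)⁻¹ * rr N x * ((rr N x)⁻¹ * rr N y) = (rr N w)⁻¹ * rr N y := by group
      have e2 : (rr N x)⁻¹ * rr N y * ((rr N y)⁻¹ * rr N z) = (rr N x)⁻¹ * rr N z := by group
      rw [e1, e2] at this
      linear_combination this
    · simp at hl

end pull

section functional

variable {k : Type} [Field k] {G : Type} [Group G] (S : Finset G) (N : Subgroup G) [N.Normal]

/-- coordinates of a triangle -/
noncomputable def cc (p : (G ⧸ N) × TT S) : N × N :=
  ((rr N p.1.out)⁻¹ * rr N (p.1.out * p.2.1.1),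
    (rr N (p.1.out * p.2.1.1))⁻¹ * rr N (p.1.out * p.2.1.2))

/-- the functional on triangles modulo `N`, linear in the cochain -/
noncomputable def fl : (N × N → k) →ₗ[k] Module.Dual k ((G ⧸ N) × TT S →₀ k) :=
  (Finsupp.llift k k k ((G ⧸ N) × TT S)).toLinearMap ∘ₗ LinearMap.funLeft k k (cc S N)

theorem fl_single (f : N × N → k) (p : (G ⧸ N) × TT S) (a : k) :
    fl S N f (Finsupp.single p a) = a * f (cc S N p) := by
  simp [fl, LinearMap.funLeft]

/-- push forward of chains -/
noncomputable abbrev pu (k : Type) [Field k] {G : Type} [Group G] (N : Subgroup G) [N.Normal]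
    (T : Type) : (G × T →₀ k) →ₗ[k] ((G ⧸ N) × T →₀ k) :=
  Finsupp.lmapDomain k k (Prod.map (QuotientGroup.mk' N) id)

theorem fl_pu (f : N × N → k) (c : G × TT S →₀ k) :
    fl S N f (pu k N _ c) = FF N f (θ k S c) := by
  induction c using Finsupp.induction_linear with
  | zero => simp
  | add a b ha hb => simp only [map_add, ha, hb]
  | single p a =>
    obtain ⟨g, t⟩ := p
    rw [pu, Finsupp.lmapDomain_apply, Finsupp.mapDomain_single, fl_single, θ,
      Finsupp.lmapDomain_apply, Finsupp.mapDomain_single, FF, ext_single, smul_eq_mul]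
    congr 1
    obtain ⟨s, hs⟩ := QuotientGroup.mk_out_eq_mul N g
    -- `out = n * g`
    have hn : g * (s : G) * g⁻¹ ∈ N := ‹N.Normal›.conj_mem _ s.2 g
    have ho : ((QuotientGroup.mk' N) g).out = ((⟨g * s * g⁻¹, hn⟩ : N) : G) * g := by
      change ((g : G ⧸ N)).out = _
      rw [hs]; simp
    have := FL_tr N f ⟨g * s * g⁻¹, hn⟩ [g, g * t.1.1, g * t.1.2]
    rw [← this]
    simp only [cc, Prod.map, id, List.map, FL, ho, mul_assoc]

variable {S N}

theorem sup_θ (c : G × TT S →₀ k) : Sup (fun l => l.length = 3 ∧ SmG S l) (θ k S c) := by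
  intro l hl
  classical
  have h1 := Finsupp.mapDomain_support hl
  obtain ⟨p, -, rfl⟩ := Finset.mem_image.1 h1
  refine ⟨rfl, ?_⟩
  have := smG_map_mul p.2.2 p.1
  simpa using this

theorem fl_Zbar {f : N × N → k}
    (hf : ∀ g h j : N, f (h, j) - f (g * h, j) + f (g, h * j) - f (g, h) = 0)
    {z : G × TT S →₀ k} (hz : D (bT k S) z = 0) : fl S N f (pu k N _ z) = 0 := by
  have h0 : bd (θ k S z) = 0 := by rw [← η_D, hz, map_zero]
  rw [fl_pu, ← bd_cone_cycle h0 1]
  exact FF_bd N f hf _ (Sup.cone 1 ((sup_θ z).mono fun l hl => by simp [hl.1]))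

open Classical in
/-- value of a functional on edges -/
noncomputable def bf (β : ((G ⧸ N) × UU S →₀ k) →ₗ[k] k) (x : G ⧸ N) (u : G) : k :=
  if h : u ∈ S then β (Finsupp.single (x, ⟨u, h⟩) 1) else 0

/-- a functional on edges modulo `N` as a cochain on lists -/
noncomputable def BL (β : ((G ⧸ N) × UU S →₀ k) →ₗ[k] k) : List G → k
  | [x, y] => bf β (x : G ⧸ N) (x⁻¹ * y)
  | _ => 0

omit [N.Normal] in
theorem BL_pair (β : ((G ⧸ N) × UU S →₀ k) →ₗ[k] k) (g : G) (u : UU S) :
    BL β [g, g * u.1] = β (Finsupp.single ((g : G ⧸ N), u) 1) := by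
  have h : g⁻¹ * (g * u.1) = u.1 := by group
  rw [BL, h, bf, dif_pos u.2]
  rfl

theorem BL_tr (β : ((G ⧸ N) × UU S →₀ k) →ₗ[k] k) (n : N) (l : List G) :
    BL β (l.map fun x => (n : G) * x) = BL β l := by
  rcases l with _ | ⟨x, _ | ⟨y, _ | ⟨z, l⟩⟩⟩
  · rfl
  · rfl
  · simp only [List.map, BL, mk_mul_left]
    have h : ((n : G) * x)⁻¹ * (n * y) = x⁻¹ * y := by group
    rw [h]
  · rfl

theorem BL_tr' (β : ((G ⧸ N) × UU S →₀ k) →ₗ[k] k) (n : N) (c : Ch k G) :
    ext (BL β) (tr (n : G) c) = ext (BL β) c := by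
  induction c using Finsupp.induction_linear with
  | zero => simp
  | add a b ha hb => rw [map_add, map_add, map_add, ha, hb]
  | single l r => rw [tr_single, ext_single, ext_single, BL_tr]

theorem BL_η (β : ((G ⧸ N) × UU S →₀ k) →ₗ[k] k) (c : G × UU S →₀ k) :
    ext (BL β) (η k S c) = β (pu k N _ c) := by
  induction c using Finsupp.induction_linear with
  | zero => simp
  | add a b ha hb => simp only [map_add, ha, hb]
  | single p a =>
    obtain ⟨g, u⟩ := p
    rw [pu, Finsupp.lmapDomain_apply, Finsupp.mapDomain_single, η, Finsupp.lmapDomain_apply,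
      Finsupp.mapDomain_single, ext_single, BL_pair, ← map_smul, Finsupp.smul_single, smul_eq_mul,
      mul_one]
    rfl

/-- an `S`-small triangle comes from the table -/
theorem exists_θ {l : List G} (h1 : l.length = 3) (h2 : SmG S l) :
    ∃ c : G × TT S →₀ k, θ k S c = Finsupp.single l 1 := by
  rcases l with _ | ⟨x, _ | ⟨y, _ | ⟨z, _ | ⟨w, l⟩⟩⟩⟩
  · simp at h1
  · simp at h1
  · simp at h1
  · refine ⟨Finsupp.single (x, ⟨(x⁻¹ * y, x⁻¹ * z), ?_⟩) 1, ?_⟩
    · have := smG_map_mul h2 x⁻¹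
      simpa using this
    · rw [θ, Finsupp.lmapDomain_apply, Finsupp.mapDomain_single]
      simp
  · simp at h1

theorem exists_primitive {S₁ : Finset G} {P : G → Ch k G}
    (hP : ∀ g, bd (P g) = Finsupp.single [g] 1 - Finsupp.single [1] 1)
    (hPs : ∀ g, Sup (fun l => l.length = 2 ∧ SmG S₁ l) (P g))
    (h2 : ∀ z : Ch k G, bd z = 0 → Sup (fun l => l.length = 2 ∧ SmG S₁ l) z →
      ∃ c : Ch k G, bd c = z ∧ Sup (fun l => l.length = 3 ∧ SmG S l) c)
    {f : N × N → k}
    (hf : ∀ g h j : N, f (h, j) - f (g * h, j) + f (g, h * j) - f (g, h) = 0)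
    (h0 : ∀ z, D (pushB (QuotientGroup.mk' N) (bT k S)) z = 0 → fl S N f z = 0) :
    ∃ e : N → k, ∀ g h, f (g, h) = e h - e (g * h) + e g := by
  classical
  -- the functional factors through the boundary
  obtain ⟨β, hβ⟩ : ∃ β : ((G ⧸ N) × UU S →₀ k) →ₗ[k] k,
      ∀ z, fl S N f z = β (D (pushB (QuotientGroup.mk' N) (bT k S)) z) := by
    have h1 : fl S N f ∈ (LinearMap.ker (D (pushB (QuotientGroup.mk' N) (bT k S)))).dualAnnihilator := by
      rw [Submodule.mem_dualAnnihilator]
      intro z hz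
      exact h0 z hz
    rw [← LinearMap.range_dualMap_eq_dualAnnihilator_ker] at h1
    obtain ⟨β, hβ⟩ := h1
    exact ⟨β, fun z => by rw [← hβ]; rfl⟩
  have hB : ∀ c, Sup (fun l => l.length = 3 ∧ SmG S l) c → FF N f c = ext (BL β) (bd c) := by
    intro c hc
    rw [FF, ext_bdL]
    refine ext_congr hc fun l hl => ?_
    obtain ⟨d, hd⟩ := exists_θ (k := k) hl.1 hl.2
    have e1 : bd (Finsupp.single l (1 : k)) = bdL k l := by rw [bd_single, one_smul]
    have e2 : FF N f (Finsupp.single l 1) = FL N f l := by rw [FF, ext_single, one_smul]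
    rw [← e1, ← e2, ← hd, ← fl_pu, hβ, ← η_D, BL_η]
    congr 1
    exact (map_D (QuotientGroup.mk' N) (bT k S) d).symm
  set E : Ch k G →ₗ[k] k :=
    (ext (BL β)).comp (ext (psi1L P)) + (FF N f).comp (ext (hp1L P)) with hE
  have hEt : ∀ (n : N) (l : List G), E (Finsupp.single (l.map fun x => (n : G) * x) 1) =
      E (Finsupp.single l 1) := by
    intro n l
    rw [hE]
    simp only [LinearMap.add_apply, LinearMap.comp_apply, ext_single, one_smul]
    rw [psi1L_tr, hp1L_tr, BL_tr', FF_tr]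
  refine ⟨fun n => E (Finsupp.single [1, (n : G)] 1), fun g h => ?_⟩
  have key := exists_cochain hP hPs h2 (FF N f) (ext (BL β)) (FF_bd N f hf) hB 1 (g : G)
    ((g : G) * h)
  rw [← hE, bdL_three, map_add, map_sub] at key
  have t1 : FF N f (Finsupp.single [1, (g : G), (g : G) * h] 1) = f (g, h) := by
    rw [FF, ext_single, one_smul, FL, rr_one, rr_coe, rr_mul, rr_coe]
    congr 2 <;> group
  have t2 : E (Finsupp.single [(g : G), (g : G) * h] 1) = E (Finsupp.single [1, (h : G)] 1) := by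
    have := hEt g [1, (h : G)]
    simpa using this
  rw [t1, t2] at key
  rw [key]
  simp

end functional

section final

open LinearMap

/-- dimension count -/
theorem dim_bound {k : Type*} [Field k] {C H V : Type*} [AddCommGroup C] [Module k C]
    [AddCommGroup H] [Module k H] [AddCommGroup V] [Module k V] [Module.Finite k V]
    (π : C →ₗ[k] H) (hπ : Function.Surjective π) (Z Zb : Submodule k V) (hle : Zb ≤ Z)
    (φ : C →ₗ[k] Module.Dual k V) (hker : ∀ f, (∀ z ∈ Z, φ f z = 0) → π f = 0)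
    (hZb : ∀ f, ∀ z ∈ Zb, φ f z = 0) :
    finrank k H + finrank k Zb ≤ finrank k Z := by
  let Φ : C →ₗ[k] Module.Dual k Z := Z.dualRestrict ∘ₗ φ
  have hker' : ker Φ ≤ ker π := by
    intro f hf
    exact hker f fun z hz => LinearMap.congr_fun (show Φ f = 0 from hf) ⟨z, hz⟩
  have hrange : range Φ ≤ (Zb.comap Z.subtype).dualAnnihilator := by
    rintro _ ⟨f, rfl⟩
    rw [Submodule.mem_dualAnnihilator]
    rintro ⟨w, hwZ⟩ hw
    exact hZb f w hw
  have hfr1 : finrank k (Zb.comap Z.subtype) = finrank k Zb :=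
    (Submodule.comapSubtypeEquivOfLe hle).finrank_eq
  have hfr2 : finrank k (Zb.comap Z.subtype) +
      finrank k (Zb.comap Z.subtype).dualAnnihilator = finrank k Z :=
    Subspace.finrank_add_finrank_dualAnnihilator_eq _
  have hfr3 : finrank k (range Φ) ≤ finrank k (Zb.comap Z.subtype).dualAnnihilator :=
    Submodule.finrank_mono hrange
  have hfr4 : finrank k H ≤ finrank k (range Φ) := by
    let Ψ : range Φ →ₗ[k] H :=
      (ker Φ).liftQ π hker' ∘ₗ (LinearMap.quotKerEquivRange Φ).symm.toLinearMap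
    have hΨ : Function.Surjective Ψ := by
      intro y
      obtain ⟨x, hx⟩ := hπ y
      refine ⟨LinearMap.quotKerEquivRange Φ (Submodule.Quotient.mk x), ?_⟩
      simp only [Ψ, LinearMap.comp_apply, LinearEquiv.coe_coe, LinearEquiv.symm_apply_apply]
      exact hx
    exact LinearMap.finrank_le_finrank_of_surjective hΨ
  omega

theorem h2_le {q : ℕ} [Fact q.Prime] {G : Type} [Group G]
    {S₁ S : Finset G} {P : G → Ch (ZMod q) G}
    (hP : ∀ g, bd (P g) = Finsupp.single [g] 1 - Finsupp.single [1] 1)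
    (hPs : ∀ g, Sup (fun l => l.length = 2 ∧ SmG S₁ l) (P g))
    (h2 : ∀ z : Ch (ZMod q) G, bd z = 0 → Sup (fun l => l.length = 2 ∧ SmG S₁ l) z →
      ∃ c : Ch (ZMod q) G, bd c = z ∧ Sup (fun l => l.length = 3 ∧ SmG S l) c)
    (N : Subgroup G) [N.Normal] (hN : N.FiniteIndex) :
    hd q N 2 + finrank (ZMod q) ((ker (D (bT (ZMod q) S))).map (pu (ZMod q) N _)) ≤
      finrank (ZMod q) (ker (D (pushB (QuotientGroup.mk' N) (bT (ZMod q) S)))) := by
  classical
  have : Finite (G ⧸ N) := Subgroup.finite_quotient_of_finiteIndex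
  have hfin : Module.Finite (ZMod q) ((G ⧸ N) × TT S →₀ ZMod q) := inferInstance
  have hcoc : ∀ f : groupCohomology.cocycles₂ (Rep.trivial (ZMod q) N (ZMod q)), ∀ g h j : N,
      f.1 (h, j) - f.1 (g * h, j) + f.1 (g, h * j) - f.1 (g, h) = 0 := by
    intro f g h j
    exact (groupCohomology.mem_cocycles₂_def f.1).1 f.2 g h j
  refine dim_bound
    (groupCohomology.H2π (Rep.trivial (ZMod q) N (ZMod q))).hom
    ((ModuleCat.epi_iff_surjective (groupCohomology.H2π _)).1 inferInstance) _ _ ?_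
    (fl S N ∘ₗ (groupCohomology.cocycles₂ (Rep.trivial (ZMod q) N (ZMod q))).subtype) ?_ ?_
  · rintro _ ⟨z, hz, rfl⟩
    have h := map_D (QuotientGroup.mk' N) (bT (ZMod q) S) z
    rw [show D (bT (ZMod q) S) z = 0 from hz, Finsupp.mapDomain_zero] at h
    exact h.symm
  · intro f hf
    obtain ⟨e, he⟩ := exists_primitive hP hPs h2 (hcoc f) fun z hz => hf z hz
    refine (groupCohomology.H2π_eq_zero_iff f).2 ⟨e, ?_⟩
    funext gh
    obtain ⟨g, h⟩ := gh
    exact (he g h).symm
  · rintro f _ ⟨z, hz, rfl⟩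
    exact fl_Zbar (hcoc f) hz

/-- **[B2a].** -/
theorem h2_le_table {q : ℕ} [Fact q.Prime] {G : Type} [Group G]
    (fp1 : CFillS (ZMod q) G 1) (fp2 : CFillS (ZMod q) G 2) :
    ∃ (T U : Type) (_ : Finite T) (_ : Finite U) (b : T → (G × U →₀ ZMod q)),
      ∀ (N : Subgroup G) [N.Normal], N.FiniteIndex →
        hd q N 2 + finrank (ZMod q) ((ker (D b)).map
          (Finsupp.lmapDomain (ZMod q) (ZMod q) (Prod.map (QuotientGroup.mk' N) id))) ≤
        finrank (ZMod q) (ker (D (pushB (QuotientGroup.mk' N) b))) := by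
  classical
  obtain ⟨R₁, -, h1⟩ := fp1 {1}
  obtain ⟨R₂, -, h2⟩ := fp2 R₁
  have hex : ∀ g : G, ∃ c : Ch (ZMod q) G, bd c = Finsupp.single [g] 1 - Finsupp.single [1] 1 ∧
      Sup (fun l => l.length = 2 ∧ SmG R₁ l) c := by
    intro g
    have hs : ∀ x : G, Sup (fun l : List G => l.length = 1 ∧ SmG {1} l)
        (Finsupp.single [x] (1 : ZMod q)) := fun x =>
      Sup.single 1 ⟨rfl, by
        intro a ha b hb
        rw [List.mem_singleton] at ha hb
        subst ha; subst hb
        simp⟩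
    refine h1 (Finsupp.single [g] 1 - Finsupp.single [1] 1) ?_ ((hs g).sub (hs 1))
    rw [map_sub, bd_single, bd_single, bdL_one, bdL_one, sub_self]
  choose P hP hPs using hex
  exact ⟨TT R₂, UU R₂, inferInstance, inferInstance, bT (ZMod q) R₂,
    fun N _ hN => h2_le hP hPs h2 N hN⟩

end final

end Vale.Agent.P260.B
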