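import Vale.Agent.P260.H571.BlockB
import Vale.Agent.P260.H679.H2

/-! P260: block B. -/

namespace Vale.Agent.P260

/-- **Block B.** -/
theorem blockB : BlockB :=
  H571.blockB_of fun _ _ _ _ fp1 fp2 => B.h2_le_table fp1 fp2

end Vale.Agent.P260

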