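import Vale.Agent.P260.Spec4
import Vale.Agent.P260.Assembly
import Vale.Agent.P260.H571.BlockB
import Vale.Agent.P260.H679.H2

/-! P260: block G2. -/

namespace Vale.Agent.P260.G2

open Finset Module Vale.Agent.P239.M

theorem chi_eq (q : ℕ) [Fact q.Prime] (G : Type) [Group G] :
    B.chi (Rep.trivial (ZMod q) G (ZMod q)) = chi q G := rfl

theorem euler_sub {q : ℕ} [Fact q.Prime] {G : Type} [Group G] (N K : Subgroup G) (hNK : N ≤ K)
    (hn : (N.subgroupOf K).Normal) (hK : Fin4 q K) {n : ℕ} (hq : N.relIndex K = q ^ n) :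
    chi q N = q ^ n * chi q K := by
  have h := (B.euler' (G := K) ⟨hK.fin, hK.five⟩ (N.subgroupOf K) n hq).2
  rw [chi_eq, chi_eq] at h
  rw [← h]
  have e : N.subgroupOf K ≃* N := Subgroup.subgroupOfEquivOfLe hNK
  simp only [chi, hd_congr q e]

theorem exists_fi {G : Type} [Group G] (hres : ResFin G) (L : Subgroup G) (hL : L.FiniteIndex)
    (E : Finset G) : ∃ N : Subgroup G, N.Normal ∧ N.FiniteIndex ∧ N ≤ L ∧
      ∀ g ∈ E, g ∈ N → g = 1 := by
  classical
  induction E using Finset.induction_on with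
  | empty => exact ⟨L.normalCore, inferInstance, inferInstance, L.normalCore_le, by simp⟩
  | insert g E _ ih =>
    obtain ⟨N, hN, hf, hL, hE⟩ := ih
    by_cases hg : g = 1
    · refine ⟨N, hN, hf, hL, fun h hh hhN => ?_⟩
      rcases mem_insert.1 hh with h1 | h1
      · rw [h1, hg]
      · exact hE h h1 hhN
    · obtain ⟨K, hK, hKf, hgK⟩ := hres g hg
      refine ⟨N ⊓ K, inferInstance, inferInstance, inf_le_left.trans hL, fun h hh hhN => ?_⟩
      rcases mem_insert.1 hh with h1 | h1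
      · rw [h1] at hhN
        exact absurd hhN.2 hgK
      · exact hE h h1 hhN.1

theorem five_le {G : Type} [Group G] [Infinite G] : ∃ E : Finset G, ∀ N : Subgroup G,
    N.FiniteIndex → (∀ g ∈ E, g ∈ N → g = 1) → 5 ≤ N.index := by
  classical
  obtain ⟨A, hA⟩ := Infinite.exists_subset_card_eq G 5
  refine ⟨(A ×ˢ A).image fun p => p.1⁻¹ * p.2, fun N hN hE => ?_⟩
  have : Finite (G ⧸ N) := Subgroup.finite_quotient_of_finiteIndex
  have : Fintype (G ⧸ N) := Fintype.ofFinite _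
  have hinj : Set.InjOn (fun a : G => (a : G ⧸ N)) A := by
    intro a ha b hb hab
    have h1 : a⁻¹ * b ∈ N := QuotientGroup.eq.1 hab
    have h2 := hE (a⁻¹ * b) (mem_image.2 ⟨(a, b), mem_product.2 ⟨ha, hb⟩, rfl⟩) h1
    exact inv_mul_eq_one.1 h2
  rw [Subgroup.index_eq_card, Nat.card_eq_fintype_card, ← hA, ← card_image_of_injOn hinj]
  exact card_le_univ _

theorem chi_dvd {G : Type} [Group G] (hG1 : BlockG1) (hpd : PD4 G) (N : Subgroup G) [N.Normal]
    (hN : N.FiniteIndex) : (N.index : ℤ) ∣ chi 2 N := by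
  have hind : ∀ (p : ℕ) [Fact p.Prime], chi 2 N = chi p N := by
    intro p hp
    have : Fact (Nat.Prime 2) := ⟨Nat.prime_two⟩
    exact hG1 N (hpd.cfz N hN) (fun q _ => hpd.fin4 q N hN) 2 p
  rw [← Int.dvd_natAbs, Int.natCast_dvd_natCast]
  rw [Nat.dvd_iff_prime_pow_dvd_dvd]
  intro p k hp hk
  have : Fact p.Prime := ⟨hp⟩
  have : Finite (G ⧸ N) := Subgroup.finite_quotient_of_finiteIndex
  obtain ⟨S⟩ : Nonempty (Sylow p (G ⧸ N)) := inferInstance
  let K : Subgroup G := (S : Subgroup (G ⧸ N)).comap (QuotientGroup.mk' N)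
  have hNK : N ≤ K := by
    intro x hx
    rw [Subgroup.mem_comap, QuotientGroup.mk'_apply, (QuotientGroup.eq_one_iff x).2 hx]
    exact one_mem _
  have hSc := S.card_eq_multiplicity
  have hrel : N.relIndex K = Nat.card S := by
    have h1 : N.relIndex K * K.index = N.index := Subgroup.relIndex_mul_index hNK
    have h2 : K.index = (S : Subgroup (G ⧸ N)).index :=
      Subgroup.index_comap_of_surjective _ (QuotientGroup.mk'_surjective N)
    have h3 : Nat.card S * (S : Subgroup (G ⧸ N)).index = Nat.card (G ⧸ N) :=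
      Subgroup.card_mul_index _
    rw [← Subgroup.index_eq_card, ← h1, h2] at h3
    have h4 : (S : Subgroup (G ⧸ N)).index ≠ 0 := Subgroup.index_ne_zero_of_finite
    exact (Nat.eq_of_mul_eq_mul_right (Nat.pos_of_ne_zero h4) h3).symm
  rw [hSc] at hrel
  have hKf : K.FiniteIndex := Subgroup.finiteIndex_of_le hNK
  have h5 := euler_sub N K hNK inferInstance (hpd.fin4 p K hKf) hrel
  rw [← Int.natCast_dvd_natCast, Int.dvd_natAbs, hind p, h5]
  have h6 : p ^ k ∣ p ^ (Nat.card (G ⧸ N)).factorization p := by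
    apply pow_dvd_pow
    rw [← Subgroup.index_eq_card]
    exact (hp.pow_dvd_iff_le_factorization hN.index_ne_zero).1 hk
  refine Dvd.dvd.mul_right ?_ _
  exact_mod_cast Int.natCast_dvd_natCast.2 h6

theorem le_of_qPow {q : ℕ} [Fact q.Prime] {G : Type} [Group G] {G' N K : Subgroup G} [G'.Normal]
    [N.Normal] (hco : G'.index.Coprime q) (hN : N ≤ G') {a : ℕ} (ha : N.relIndex K = q ^ a) :
    K ≤ G' := by
  intro k hk
  have h1 : k ^ q ^ a ∈ G' := by
    have := Subgroup.pow_index_mem (N.subgroupOf K) ⟨k, hk⟩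
    rw [Subgroup.mem_subgroupOf] at this
    rw [← ha]
    exact hN this
  have h2 : k ^ G'.index ∈ G' := Subgroup.pow_index_mem G' k
  have h3 : G'.index.Coprime (q ^ a) := Nat.Coprime.pow_right a hco
  have h4 : (k : G ⧸ G') ^ G'.index = 1 := by
    rw [← QuotientGroup.mk_pow]; exact (QuotientGroup.eq_one_iff _).2 h2
  have h5 : (k : G ⧸ G') ^ (q ^ a) = 1 := by
    rw [← QuotientGroup.mk_pow]; exact (QuotientGroup.eq_one_iff _).2 h1
  have h6 : (k : G ⧸ G') = 1 := by
    have := orderOf_dvd_of_pow_eq_one h4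
    have h8 := orderOf_dvd_of_pow_eq_one h5
    have h9 := Nat.dvd_gcd this h8
    rw [h3.gcd_eq_one, Nat.dvd_one, orderOf_eq_one_iff] at h9
    exact h9
  exact (QuotientGroup.eq_one_iff _).1 h6

end Vale.Agent.P260.G2

namespace Vale.Agent.P260

open G2 Finset Module Vale.Agent.P239.M

/-- **Block G2** from block G1. -/
theorem blockG2_of (hG1 : BlockG1) : BlockG2 := by
  intro G _ hpd hF hres hinf q hq L hL
  have h2p : Fact (Nat.Prime 2) := ⟨Nat.prime_two⟩
  obtain ⟨G', hG'n, hG'f, hco, hG'⟩ := hpd.ori q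
  obtain ⟨T, U, hT, hU, b, hb⟩ := B.h2_le_table (q := 2) hpd.fp1 hpd.fp2
  obtain ⟨E₁, hE₁⟩ := H571.pivot hF b (1 / 2) (by norm_num)
  obtain ⟨E₂, hE₂⟩ := five_le (G := G)
  classical
  obtain ⟨N, hN, hNf, hNL, hNE⟩ := exists_fi hres (L ⊓ G') inferInstance (E₁ ∪ E₂)
  have h5 : 5 ≤ N.index := hE₂ N hNf fun g hg => hNE g (mem_union_right _ hg)
  have h6 := hE₁ N hNf fun g hg => hNE g (mem_union_left _ hg)
  have h7 := hb N hNf
  have h8 : 2 * hd 2 N 2 ≤ N.index := by
    have h9 : (hd 2 N 2 : ℝ) + finrank (ZMod 2) ((LinearMap.ker (H571.D b)).map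
        (Finsupp.lmapDomain (ZMod 2) (ZMod 2) (Prod.map (QuotientGroup.mk' N) id))) ≤
        finrank (ZMod 2) (LinearMap.ker (H571.D (H571.pushB (QuotientGroup.mk' N) b))) := by
      exact_mod_cast h7
    have h10 : (2 * hd 2 N 2 : ℝ) ≤ N.index := by linarith
    exact_mod_cast h10
  have h9 : chi 2 N ≤ 0 := by
    by_contra hcon
    push Not at hcon
    have h10 := Int.le_of_dvd hcon (chi_dvd hG1 hpd N hNf)
    have h11 := hpd.two N hNf
    have h12 : hd 2 N 0 = 1 := H571.hd_zero 2 N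
    rw [chi, h12] at h10
    omega
  refine ⟨N, hN, hNf, hNL.trans inf_le_left, ?_⟩
  rintro K hNK ⟨a, ha⟩ K₁ W hWK₁ hK₁K hWn ⟨c, hc⟩
  have hKf : K.FiniteIndex := Subgroup.finiteIndex_of_le hNK
  have hWf : W.FiniteIndex := by
    refine ⟨?_⟩
    rw [← Subgroup.relIndex_mul_index (hWK₁.trans hK₁K), hc]
    exact mul_ne_zero (pow_ne_zero _ hq.out.ne_zero) hKf.index_ne_zero
  have hK₁f : K₁.FiniteIndex := Subgroup.finiteIndex_of_le hWK₁
  have hKG' : K ≤ G' := le_of_qPow hco (hNL.trans inf_le_right) ha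
  have e1 := euler_sub N K hNK inferInstance (hpd.fin4 q K hKf) ha
  have e2 := euler_sub W K (hWK₁.trans hK₁K) hWn (hpd.fin4 q K hKf) hc
  have hWn₁ : (W.subgroupOf K₁).Normal := by
    refine ⟨fun n hn g => ?_⟩
    have := hWn.conj_mem ⟨(n : G), hK₁K n.2⟩ hn ⟨(g : G), hK₁K g.2⟩
    exact this
  obtain ⟨d, -, hd'⟩ : ∃ d ≤ c, W.relIndex K₁ = q ^ d := by
    apply (Nat.dvd_prime_pow hq.out).1
    rw [← hc, ← Subgroup.relIndex_mul_relIndex W K₁ K hWK₁ hK₁K]
    exact dvd_mul_right _ _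
  have e3 := euler_sub W K₁ hWK₁ hWn₁ (hpd.fin4 q K₁ hK₁f) hd'
  have hqpos : (0 : ℤ) < q := by exact_mod_cast hq.out.pos
  have e4 : chi q N ≤ 0 := by
    rw [← hG1 N (hpd.cfz N hNf) (fun q _ => hpd.fin4 q N hNf) 2 q]
    exact h9
  have e5 : chi q K ≤ 0 := by
    by_contra hcon
    push Not at hcon
    have := mul_pos (pow_pos hqpos a) hcon
    omega
  have e6 : chi q K₁ ≤ 0 := by
    by_contra hcon
    push Not at hcon
    have h1 := mul_pos (pow_pos hqpos d) hcon
    have h2 := mul_nonneg (pow_pos hqpos c).le (neg_nonneg.2 e5)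
    rw [mul_neg] at h2
    omega
  obtain ⟨f1, f2⟩ := hG' K₁ hK₁f (hK₁K.trans hKG')
  have f3 : hd q K₁ 0 = 1 := H571.hd_zero q K₁
  rw [chi, f1, f3] at e6
  omega

end Vale.Agent.P260
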