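import Vale.Agent.P239.Bdl.B11

/-! P260, block [B2a], chain part: an `N`-invariant 2-cocycle which is locally a coboundary on
`S`-small simplices is a coboundary, when `G` is coarsely of type `FP_2`. -/

namespace Vale.Agent.P260.B

open Vale.Agent.P239.M Vale.Agent.P239.M.SupA

variable {k : Type*} [CommRing k] {G : Type*} [Group G]

/-- translation -/
noncomputable abbrev tr (g : G) : Ch k G →ₗ[k] Ch k G := pf (fun x => g * x)

theorem tr_single (g : G) (l : List G) (r : k) :
    tr g (Finsupp.single l r) = Finsupp.single (l.map fun x => g * x) r := pf_single _ _ _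

omit [Group G] in
theorem bdL_one (x : G) : bdL k [x] = Finsupp.single [] 1 := by
  simp [bdL]

omit [Group G] in
theorem bdL_two (x y : G) : bdL k [x, y] = Finsupp.single [y] 1 - Finsupp.single [x] 1 := by
  rw [bdL, bdL_one, cone_single]

omit [Group G] in
theorem bdL_three (x y z : G) : bdL k [x, y, z] =
    Finsupp.single [y, z] 1 - Finsupp.single [x, z] 1 + Finsupp.single [x, y] 1 := by
  rw [bdL, bdL_two, map_sub, cone_single, cone_single]
  abel

theorem smG_map_mul {S : Finset G} {l : List G} (h : SmG S l) (g : G) :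
    SmG S (l.map fun x => g * x) := by
  intro x hx y hy
  obtain ⟨a, ha, rfl⟩ := List.mem_map.1 hx
  obtain ⟨b, hb, rfl⟩ := List.mem_map.1 hy
  have : (g * a)⁻¹ * (g * b) = a⁻¹ * b := by group
  rw [this]
  exact h a ha b hb

/-- Paths. -/
noncomputable def psi1L (P : G → Ch k G) : List G → Ch k G
  | [x, y] => tr x (P (x⁻¹ * y))
  | _ => 0

/-- Homotopy. -/
noncomputable def hp1L (P : G → Ch k G) : List G → Ch k G
  | [x, y] => cone x (Finsupp.single [x, y] 1 - tr x (P (x⁻¹ * y)))
  | _ => 0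

theorem psi1L_tr (P : G → Ch k G) (g : G) (l : List G) :
    psi1L P (l.map fun x => g * x) = tr g (psi1L P l) := by
  rcases l with _ | ⟨x, _ | ⟨y, _ | ⟨z, l⟩⟩⟩
  · simp [psi1L]
  · simp [psi1L]
  · simp only [List.map, psi1L]
    have h1 : (g * x)⁻¹ * (g * y) = x⁻¹ * y := by group
    rw [h1]
    have : ∀ c : Ch k G, tr (g * x) c = tr g (tr x c) := by
      intro c
      rw [eq_ext' (tr (g * x)), ← LinearMap.comp_apply, eq_ext' ((tr g).comp (tr x))]
      congr 1
      congr 1
      funext l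
      rw [LinearMap.comp_apply, tr_single, tr_single, tr_single, List.map_map]
      congr 2
      funext y
      simp [mul_assoc]
    rw [this]
  · simp [psi1L]

theorem hp1L_tr (P : G → Ch k G) (g : G) (l : List G) :
    hp1L P (l.map fun x => g * x) = tr g (hp1L P l) := by
  rcases l with _ | ⟨x, _ | ⟨y, _ | ⟨z, l⟩⟩⟩
  · simp [hp1L]
  · simp [hp1L]
  · have h := psi1L_tr P g [x, y]
    simp only [List.map, psi1L] at h
    simp only [List.map, hp1L]
    rw [h, pf_cone, map_sub (tr g : Ch k G →ₗ[k] Ch k G), tr_single]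
    simp only [List.map]
  · simp [hp1L]

variable {S₁ S₂ : Finset G} {P : G → Ch k G}
  (hP : ∀ g, bd (P g) = Finsupp.single [g] 1 - Finsupp.single [1] 1)
  (hPs : ∀ g, Sup (fun l => l.length = 2 ∧ SmG S₁ l) (P g))

include hP in
theorem bd_psi1L (x y : G) : bd (psi1L P [x, y]) = bdL k [x, y] := by
  rw [psi1L, bd_pf, hP, map_sub, pf_single, pf_single, bdL_two]
  simp

include hPs in
theorem sup_psi1L (l : List G) : Sup (fun l => l.length = 2 ∧ SmG S₁ l) (psi1L P l) := by
  rcases l with _ | ⟨x, _ | ⟨y, _ | ⟨z, l⟩⟩⟩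
  · exact Sup.zero
  · exact Sup.zero
  · refine Sup.pf _ ((hPs _).mono fun l hl => ?_)
    exact ⟨by simpa using hl.1, smG_map_mul hl.2 x⟩
  · exact Sup.zero

include hP in
theorem bd_hp1L (x y : G) : bd (hp1L P [x, y]) = Finsupp.single [x, y] 1 - psi1L P [x, y] := by
  have h := bd_psi1L hP x y
  rw [psi1L] at h
  rw [hp1L, bd_cone, map_sub, h, bd_single, one_smul, sub_self, map_zero, sub_zero, psi1L]

include hPs in
theorem sup_hp1L (l : List G) : Sup (fun l => l.length = 3) (hp1L P l) := by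
  rcases l with _ | ⟨x, _ | ⟨y, _ | ⟨z, l⟩⟩⟩
  · exact Sup.zero
  · exact Sup.zero
  · refine Sup.cone x ?_
    refine (Sup.single 1 (by simp)).sub ?_
    refine (sup_psi1L hPs [x, y]).mono fun l hl => by simp [hl.1]
  · exact Sup.zero

omit [Group G] in
/-- cycles bound -/
theorem bd_cone_cycle {c : Ch k G} (hc : bd c = 0) (x : G) : bd (cone x c) = c := by
  rw [bd_cone, hc, map_zero, sub_zero]

/-- **Main lemma.** `F` is a cocycle on lists of length three, `B` a cochain on lists of length
two with `F = δ B` on `S₂`-small lists.  Then `F = δ E` with the explicit `E`. -/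
theorem exists_cochain (hP : ∀ g, bd (P g) = Finsupp.single [g] 1 - Finsupp.single [1] 1)
    (hPs : ∀ g, Sup (fun l => l.length = 2 ∧ SmG S₁ l) (P g))
    (h2 : ∀ z : Ch k G, bd z = 0 → Sup (fun l => l.length = 2 ∧ SmG S₁ l) z →
      ∃ c : Ch k G, bd c = z ∧ Sup (fun l => l.length = 3 ∧ SmG S₂ l) c)
    (F B : Ch k G →ₗ[k] k)
    (hF : ∀ c, Sup (fun l => l.length = 4) c → F (bd c) = 0)
    (hB : ∀ c, Sup (fun l => l.length = 3 ∧ SmG S₂ l) c → F c = B (bd c)) (x y z : G) :
    F (Finsupp.single [x, y, z] 1) =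
      (B.comp (ext (psi1L P)) + F.comp (ext (hp1L P))) (bdL k [x, y, z]) := by
  set Ψ : Ch k G →ₗ[k] Ch k G := ext (psi1L P) with hΨ
  set H : Ch k G →ₗ[k] Ch k G := ext (hp1L P) with hH
  set b := bdL k [x, y, z] with hb
  have hsum : b = Finsupp.single [y, z] 1 - Finsupp.single [x, z] 1 + Finsupp.single [x, y] 1 :=
    bdL_three x y z
  have hΨs : ∀ l, Ψ (Finsupp.single l 1) = psi1L P l := fun l => by
    rw [hΨ, ext_single, one_smul]
  have hHs : ∀ l, H (Finsupp.single l 1) = hp1L P l := fun l => by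
    rw [hH, ext_single, one_smul]
  have e1 : bd (Ψ b) = 0 := by
    rw [hsum]
    simp only [map_add, map_sub, hΨs, bd_psi1L hP, bdL_two]
    abel
  have e2 : bd (H b) = b - Ψ b := by
    rw [hsum]
    simp only [map_add, map_sub, hΨs, hHs, bd_hp1L hP]
    abel
  have s1 : Sup (fun l => l.length = 2 ∧ SmG S₁ l) (Ψ b) := by
    rw [hsum]
    simp only [map_add, map_sub, hΨs]
    exact ((sup_psi1L hPs _).sub (sup_psi1L hPs _)).add (sup_psi1L hPs _)
  have s2 : Sup (fun l => l.length = 3) (H b) := by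
    rw [hsum]
    simp only [map_add, map_sub, hHs]
    exact ((sup_hp1L hPs _).sub (sup_hp1L hPs _)).add (sup_hp1L hPs _)
  obtain ⟨c, hc, hcs⟩ := h2 _ e1 s1
  -- the cycle
  have e3 : bd (Finsupp.single [x, y, z] 1 - c - H b) = 0 := by
    rw [map_sub, map_sub, bd_single, one_smul, hc, e2, ← hb]
    abel
  have s3 : Sup (fun l => l.length = 3) (Finsupp.single [x, y, z] 1 - c - H b) := by
    have t1 : Sup (fun l : List G => l.length = 3) (Finsupp.single [x, y, z] (1 : k)) :=
      Sup.single 1 rfl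
    have t2 : Sup (fun l : List G => l.length = 3) c := hcs.mono fun l hl => hl.1
    exact (t1.sub t2).sub s2
  have e4 : F (Finsupp.single [x, y, z] 1 - c - H b) = 0 := by
    rw [← bd_cone_cycle e3 1]
    exact hF _ (Sup.cone 1 (s3.mono fun l hl => by simp [hl]))
  rw [map_sub, map_sub, hB c hcs, hc] at e4
  rw [LinearMap.add_apply, LinearMap.comp_apply, LinearMap.comp_apply]
  linear_combination e4

end Vale.Agent.P260.B
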