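import Mathlib

/-! P260, block [U], part 1: a family of representations of a finitely generated group over
commutative rings factors through one representation over a noetherian ring. -/

namespace Vale.Agent.P260.U

open Matrix

theorem exists_ring (G : Type) [Group G] (hfg : Group.FG G) (m : ℕ) {I : Type} (R : I → Type)
    [∀ i, CommRing (R i)] (ρ : ∀ i, G →* Matrix (Fin m) (Fin m) (R i)) :
    ∃ (A : Type) (_ : CommRing A) (_ : IsNoetherianRing A)
      (σ : G →* Matrix (Fin m) (Fin m) A) (π : ∀ i, A →+* R i),
      ∀ i g a b, π i (σ g a b) = ρ i g a b := by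
  classical
  obtain ⟨S, hS⟩ := Group.fg_def.1 hfg
  let M : G → Matrix (Fin m) (Fin m) (∀ i, R i) := fun g a b i => ρ i g a b
  have hM1 : M 1 = 1 := by
    ext a b i
    simp only [M, map_one, Matrix.one_apply]
    split_ifs <;> rfl
  have hMmul : ∀ g h, M (g * h) = M g * M h := by
    intro g h
    ext a b i
    change ρ i (g * h) a b = (M g * M h) a b i
    rw [map_mul, Matrix.mul_apply, Matrix.mul_apply, Finset.sum_apply]
    rfl
  let E : Set (∀ i, R i) := ⋃ s ∈ S, ⋃ a, ⋃ b, {M s a b, M s⁻¹ a b}
  have hE : E.Finite := by
    refine Set.Finite.biUnion S.finite_toSet fun s _ => Set.finite_iUnion fun a =>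
      Set.finite_iUnion fun b => Set.toFinite _
  let A : Subring (∀ i, R i) := Subring.closure E
  have hA : IsNoetherianRing A := is_noetherian_subring_closure E hE
  have hmem : ∀ g : G, ∀ a b, M g a b ∈ A := by
    have key : ∀ g ∈ Subgroup.closure (S : Set G), (∀ a b, M g a b ∈ A) ∧ ∀ a b, M g⁻¹ a b ∈ A := by
      intro g hg
      induction hg using Subgroup.closure_induction with
      | mem x hx =>
        refine ⟨fun a b => Subring.subset_closure ?_, fun a b => Subring.subset_closure ?_⟩
        · simp only [E, Set.mem_iUnion]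
          exact ⟨x, hx, a, b, Or.inl rfl⟩
        · simp only [E, Set.mem_iUnion]
          exact ⟨x, hx, a, b, Or.inr rfl⟩
      | one =>
        have h1 : ∀ a b, M 1 a b ∈ A := by
          intro a b
          rw [hM1, Matrix.one_apply]
          split_ifs
          · exact A.one_mem
          · exact A.zero_mem
        exact ⟨h1, by rw [inv_one]; exact h1⟩
      | mul x y _ _ hx hy =>
        refine ⟨fun a b => ?_, fun a b => ?_⟩
        · rw [hMmul, Matrix.mul_apply]
          exact A.sum_mem fun c _ => A.mul_mem (hx.1 a c) (hy.1 c b)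
        · rw [_root_.mul_inv_rev, hMmul, Matrix.mul_apply]
          exact A.sum_mem fun c _ => A.mul_mem (hy.2 a c) (hx.2 c b)
      | inv x _ hx => exact ⟨hx.2, by rw [inv_inv]; exact hx.1⟩
    intro g
    exact (key g (by rw [hS]; trivial)).1
  refine ⟨A, inferInstance, hA,
    { toFun := fun g => Matrix.of fun a b => ⟨M g a b, hmem g a b⟩
      map_one' := ?_
      map_mul' := ?_ }, fun i => (Pi.evalRingHom R i).comp A.subtype, fun i g a b => rfl⟩
  · ext a b : 1
    apply Subtype.ext
    simp only [hM1, Matrix.of_apply, Matrix.one_apply]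
    split_ifs <;> rfl
  · intro g h
    ext a b : 1
    apply Subtype.ext
    simp only [hMmul, Matrix.of_apply, Matrix.mul_apply]
    rw [AddSubmonoidClass.coe_finsetSum]
    rfl

end Vale.Agent.P260.U
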