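import Vale.Agent.P260.H679.U1
import Vale.Agent.P260.H573.Ind

/-! P260, block [U], part 2: valuations, congruences, primes of characteristic zero. -/

namespace Vale.Agent.P260.U

open Matrix F
open scoped commutatorElement

section Val

variable {q : ℕ} [hq : Fact q.Prime]

theorem dvd_pow_of_not_dvd {j c : ℕ} (hc : 0 < c) (x : ZMod (q ^ j))
    (h : ¬ ((q : ZMod (q ^ j)) ^ c ∣ x)) : x ∣ (q : ZMod (q ^ j)) ^ (c - 1) := by
  have hne : NeZero (q ^ j) := ⟨pow_ne_zero _ hq.out.ne_zero⟩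
  obtain ⟨e, -, he⟩ := (Nat.dvd_prime_pow hq.out).1 (Nat.gcd_dvd_right x.val (q ^ j))
  have hx : ((x.val : ℕ) : ZMod (q ^ j)) = x := ZMod.natCast_zmod_val x
  have hec : e ≤ c - 1 := by
    by_contra hcon
    apply h
    have h1 : q ^ c ∣ x.val := by
      refine dvd_trans ?_ (Nat.gcd_dvd_left x.val (q ^ j))
      rw [he]
      exact pow_dvd_pow q (by omega)
    obtain ⟨w, hw⟩ := h1
    refine ⟨(w : ZMod (q ^ j)), ?_⟩
    rw [← hx, hw]
    push_cast
    rfl
  have h2 : x ∣ ((Nat.gcd x.val (q ^ j) : ℕ) : ZMod (q ^ j)) := by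
    have h3 := Nat.gcd_eq_gcd_ab x.val (q ^ j)
    have h4 := congrArg (fun z : ℤ => (z : ZMod (q ^ j))) h3
    simp only [Int.cast_natCast, Int.cast_add, Int.cast_mul] at h4
    rw [hx, ZMod.natCast_self, zero_mul, add_zero] at h4
    exact ⟨_, h4⟩
  refine h2.trans ?_
  rw [he]
  push_cast
  exact pow_dvd_pow _ hec

theorem exists_prime_val {A : Type} [CommRing A] (Z : Multiset (PrimeSpectrum A))
    (hZ : (Z.map PrimeSpectrum.asIdeal).prod ≤ ⊥) {j : ℕ} (hj : 0 < j) (φ : A →+* ZMod (q ^ j)) :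
    ∃ P ∈ Z, ∀ a ∈ P.asIdeal, (q : ZMod (q ^ j)) ^ ((j - 1) / Z.card + 1) ∣ φ a := by
  by_contra hcon
  push Not at hcon
  have key : ∀ Z' : Multiset (PrimeSpectrum A), (∀ P ∈ Z', ∃ a ∈ P.asIdeal,
      ¬ (q : ZMod (q ^ j)) ^ ((j - 1) / Z.card + 1) ∣ φ a) →
      ∃ x ∈ (Z'.map PrimeSpectrum.asIdeal).prod,
        φ x ∣ (q : ZMod (q ^ j)) ^ ((j - 1) / Z.card * Z'.card) := by
    intro Z'
    induction Z' using Multiset.induction with
    | empty =>
      intro _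
      exact ⟨1, by simp, by simp⟩
    | cons P Z' ih =>
      intro h
      obtain ⟨x, hx, hxd⟩ := ih fun Q hQ => h Q (Multiset.mem_cons_of_mem hQ)
      obtain ⟨a, ha, had⟩ := h P (Multiset.mem_cons_self P Z')
      have h1 := dvd_pow_of_not_dvd (Nat.succ_pos _) _ had
      refine ⟨a * x, ?_, ?_⟩
      · rw [Multiset.map_cons, Multiset.prod_cons]
        exact Ideal.mul_mem_mul ha hx
      · rw [map_mul, Multiset.card_cons, mul_add, mul_one, pow_add, mul_comm (φ a)]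
        exact mul_dvd_mul hxd h1
  obtain ⟨x, hx, hxd⟩ := key Z hcon
  have hx0 : x = 0 := hZ hx
  rw [hx0, map_zero, zero_dvd_iff] at hxd
  have h2 : ((q ^ ((j - 1) / Z.card * Z.card) : ℕ) : ZMod (q ^ j)) = 0 := by
    push_cast; exact hxd
  rw [ZMod.natCast_eq_zero_iff] at h2
  have h3 := (Nat.pow_dvd_pow_iff_le_right hq.out.one_lt).1 h2
  have h4 := Nat.div_mul_le_self (j - 1) Z.card
  omega

end Val

section Cong

variable {G : Type*} [Group G] {m : ℕ} {R : Type*} [CommRing R]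

/-- elements acting trivially modulo `J` -/
def CG (ρ : G →* Matrix (Fin m) (Fin m) R) (J : Ideal R) : Subgroup G :=
  (((Ideal.Quotient.mk J).mapMatrix.toMonoidHom).comp ρ).ker

theorem mem_CG {ρ : G →* Matrix (Fin m) (Fin m) R} {J : Ideal R} {g : G} :
    g ∈ CG ρ J ↔ ∀ a b, (ρ g - 1) a b ∈ J := by
  rw [CG, MonoidHom.mem_ker]
  constructor
  · intro h a b
    have h1 := congrFun (congrFun h a) b
    have h2 : Ideal.Quotient.mk J (ρ g a b) = (1 : Matrix (Fin m) (Fin m) (R ⧸ J)) a b := h1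
    rw [Matrix.sub_apply, ← Ideal.Quotient.eq_zero_iff_mem, map_sub, h2]
    simp only [Matrix.one_apply]
    split_ifs <;> simp
  · intro h
    ext a b
    change Ideal.Quotient.mk J (ρ g a b) = (1 : Matrix (Fin m) (Fin m) (R ⧸ J)) a b
    have h1 := h a b
    rw [Matrix.sub_apply, ← Ideal.Quotient.eq_zero_iff_mem, map_sub, sub_eq_zero] at h1
    rw [h1]
    simp only [Matrix.one_apply]
    split_ifs <;> simp

theorem CG_comm {ρ : G →* Matrix (Fin m) (Fin m) R} {J₁ J₂ : Ideal R} {g h : G}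
    (hg : g ∈ CG ρ J₁) (hh : h ∈ CG ρ J₂) : ⁅g, h⁆ ∈ CG ρ (J₁ * J₂) := by
  rw [mem_CG] at *
  have e : ρ ⁅g, h⁆ - 1 = ((ρ g - 1) * (ρ h - 1) - (ρ h - 1) * (ρ g - 1)) * ρ (g⁻¹ * h⁻¹) := by
    have e1 : (ρ g - 1) * (ρ h - 1) - (ρ h - 1) * (ρ g - 1) = ρ (g * h) - ρ (h * g) := by
      rw [map_mul, map_mul]; noncomm_ring
    rw [e1, sub_mul, ← map_mul, ← map_mul, commutatorElement_def]
    have e2 : g * h * (g⁻¹ * h⁻¹) = g * h * g⁻¹ * h⁻¹ := by group
    have e3 : h * g * (g⁻¹ * h⁻¹) = 1 := by group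
    rw [e2, e3, map_one]
  intro a b
  rw [e, Matrix.mul_apply]
  refine Ideal.sum_mem _ fun c _ => Ideal.mul_mem_right _ _ ?_
  rw [Matrix.sub_apply, Matrix.mul_apply, Matrix.mul_apply]
  refine Ideal.sub_mem _ (Ideal.sum_mem _ fun d _ => Ideal.mul_mem_mul (hg a d) (hh d c))
    (Ideal.sum_mem _ fun d _ => ?_)
  rw [mul_comm ((ρ h - 1) a d)]
  exact Ideal.mul_mem_mul (hg d c) (hh a d)

theorem CG_mono {ρ : G →* Matrix (Fin m) (Fin m) R} {J₁ J₂ : Ideal R} (h : J₁ ≤ J₂) :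
    CG ρ J₁ ≤ CG ρ J₂ := fun g hg => mem_CG.2 fun a b => h (mem_CG.1 hg a b)

theorem der_CG {ρ : G →* Matrix (Fin m) (Fin m) R} {J : Ideal R} {E : Subgroup G}
    (hE : E ≤ CG ρ J) (k : ℕ) : der E k ≤ CG ρ (J ^ (k + 1)) := by
  induction k with
  | zero => rw [zero_add, pow_one]; exact hE
  | succ k ih =>
    change ⁅der E k, der E k⁆ ≤ _
    rw [Subgroup.commutator_le]
    intro a ha b hb
    refine CG_mono ?_ (CG_comm (ih ha) (ih hb))
    rw [← pow_add]
    exact Ideal.pow_le_pow_right (by omega)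

theorem CG_bot {ρ : G →* Matrix (Fin m) (Fin m) R} {g : G} (h : g ∈ CG ρ ⊥) : ρ g = 1 := by
  rw [mem_CG] at h
  ext a b
  have := h a b
  rw [Ideal.mem_bot, Matrix.sub_apply, sub_eq_zero] at this
  exact this

theorem der_add (H : Subgroup G) (a b : ℕ) : der (der H a) b = der H (a + b) := by
  induction b with
  | zero => rfl
  | succ b ih =>
    change ⁅der (der H a) b, der (der H a) b⁆ = ⁅der H (a + b), der H (a + b)⁆
    rw [ih]

end Cong

end Vale.Agent.P260.U
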