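import Vale.Agent.P260.H679.U2
import Vale.Agent.P260.Spec2

/-! P260, block [U]: uniform virtual solvability of the representations over the rings `ℤ/q^j`
of a finitely generated amenable group. -/

namespace Vale.Agent.P260.U

open Matrix F
open scoped commutatorElement

/-- prime ideals without nonzero integers -/
theorem kill_prime (hBF : BlockF) {G : Type} [Group G] (hfg : Group.FG G) (hFo : Folner G) {m : ℕ}
    {A : Type} [CommRing A] (σ : G →* Matrix (Fin m) (Fin m) A) (P : Ideal A) [P.IsPrime]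
    (hP : ∀ n : ℕ, n ≠ 0 → (n : A) ∉ P) :
    ∃ H : Subgroup G, H.FiniteIndex ∧ ∃ n : ℕ, der H n ≤ CG σ P := by
  let K := FractionRing (A ⧸ P)
  let τ : A →+* K := (algebraMap (A ⧸ P) K).comp (Ideal.Quotient.mk P)
  have hτ : ∀ a, τ a = 0 → a ∈ P := by
    intro a ha
    have h1 : algebraMap (A ⧸ P) K (Ideal.Quotient.mk P a) = 0 := ha
    have h2 := (IsFractionRing.injective (A ⧸ P) K) (h1.trans (map_zero _).symm)
    exact Ideal.Quotient.eq_zero_iff_mem.1 h2
  have hchar : CharZero K := by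
    refine charZero_of_inj_zero fun n hn => ?_
    by_contra hne
    refine hP n hne (hτ _ ?_)
    rw [map_natCast]
    exact hn
  let σK : G →* GL (Fin m) K := MonoidHom.toHomUnits (τ.mapMatrix.toMonoidHom.comp σ)
  obtain ⟨H, hH, hs⟩ := hBF K m G hfg hFo σK
  obtain ⟨n, hn⟩ := hs.solvable
  refine ⟨H, hH, n, fun x hx => ?_⟩
  have h1 : σK x ∈ der (H.map σK) n := by
    rw [← map_der]
    exact Subgroup.mem_map_of_mem _ hx
  have h2 : der (H.map σK) n = ⊥ := by
    rw [derivedSeries_eq] at hn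
    have h3 := map_der (H.map σK).subtype (⊤ : Subgroup (H.map σK)) n
    rw [hn, Subgroup.map_bot] at h3
    rw [h3]
    congr 1
    rw [← MonoidHom.range_eq_map, Subgroup.range_subtype]
  rw [h2, Subgroup.mem_bot] at h1
  rw [mem_CG]
  intro a b
  apply hτ
  rw [Matrix.sub_apply, map_sub, sub_eq_zero]
  have h3 : ((σK x : GL (Fin m) K) : Matrix (Fin m) (Fin m) K) a b =
      (1 : Matrix (Fin m) (Fin m) K) a b := by rw [h1]; rfl
  have h4 : τ (σ x a b) = (1 : Matrix (Fin m) (Fin m) K) a b := h3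
  rw [h4]
  simp only [Matrix.one_apply]
  split_ifs <;> simp

theorem finite_hom {G : Type} [Group G] (hfg : Group.FG G) (M : Type) [Monoid M] [Finite M] :
    Finite (G →* M) := by
  obtain ⟨S, hS⟩ := Group.fg_def.1 hfg
  refine Finite.of_injective (fun f : G →* M => fun s : S => f s) ?_
  intro f g hfg
  refine MonoidHom.eq_of_eqOn_dense hS ?_
  intro s hs
  exact congrFun hfg ⟨s, hs⟩

/-- common kernel of the homomorphisms to a finite group -/
theorem exists_ker {G : Type} [Group G] (hfg : Group.FG G) (M : Type) [Group M] [Finite M] :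
    ∃ H : Subgroup G, H.FiniteIndex ∧ ∀ f : G →* M, ∀ x ∈ H, f x = 1 := by
  have := finite_hom hfg M
  refine ⟨⨅ f : G →* M, f.ker, Subgroup.finiteIndex_iInf fun f => inferInstance, ?_⟩
  intro f x hx
  exact MonoidHom.mem_ker.1 ((Subgroup.mem_iInf.1 hx) f)

/-- data for one prime ideal -/
theorem exists_data (hBF : BlockF) {G : Type} [Group G] (hfg : Group.FG G) (hFo : Folner G) {m : ℕ}
    {A : Type} [CommRing A] (σ : G →* Matrix (Fin m) (Fin m) A) (t : ℕ) (P : PrimeSpectrum A) :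
    ∃ H : Subgroup G, H.FiniteIndex ∧ ∃ n : ℕ,
      (der H n ≤ CG σ P.asIdeal) ∨ (∃ p : ℕ, p.Prime ∧ (p : A) ∈ P.asIdeal ∧ ∀ j ≤ t,
        ∀ ρ : G →* GL (Fin m) (ZMod (p ^ j)), ∀ x ∈ H, ρ x = 1) := by
  by_cases hP : ∀ n : ℕ, n ≠ 0 → (n : A) ∉ P.asIdeal
  · obtain ⟨H, hH, n, h⟩ := kill_prime hBF hfg hFo σ P.asIdeal hP
    exact ⟨H, hH, n, Or.inl h⟩
  · push Not at hP
    -- a prime number in the ideal
    obtain ⟨p, hp, hpP⟩ : ∃ p : ℕ, p.Prime ∧ (p : A) ∈ P.asIdeal := by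
      obtain ⟨n, hn, hnP⟩ := hP
      induction n using Nat.recOnMul with
      | zero => exact absurd rfl hn
      | one =>
        exfalso
        apply P.2.ne_top
        rw [Ideal.eq_top_iff_one]
        simpa using hnP
      | prime p hp => exact ⟨p, hp, hnP⟩
      | mul a b iha ihb =>
        rw [Nat.cast_mul] at hnP
        rcases P.2.mem_or_mem hnP with h | h
        · exact iha (left_ne_zero_of_mul hn) h
        · exact ihb (right_ne_zero_of_mul hn) h
    have hne : ∀ j : ℕ, NeZero (p ^ j) := fun j => ⟨pow_ne_zero _ hp.ne_zero⟩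
    have hk : ∀ j : Fin (t + 1), ∃ H : Subgroup G, H.FiniteIndex ∧
        ∀ f : G →* GL (Fin m) (ZMod (p ^ (j : ℕ))), ∀ x ∈ H, f x = 1 := fun j => by
      have := hne j
      have : Finite (GL (Fin m) (ZMod (p ^ (j : ℕ)))) := inferInstance
      exact exists_ker hfg _
    choose H hH hH' using hk
    refine ⟨⨅ j, H j, Subgroup.finiteIndex_iInf hH, 0, Or.inr ⟨p, hp, hpP, ?_⟩⟩
    intro j hj ρ x hx
    exact hH' ⟨j, Nat.lt_succ_of_le hj⟩ ρ x ((Subgroup.mem_iInf.1 hx) ⟨j, Nat.lt_succ_of_le hj⟩)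

theorem eq_of_dvd {q : ℕ} [hq : Fact q.Prime] {p j c : ℕ} (hp : p.Prime) (hc : 0 < c)
    (hcj : c ≤ j) (h : (q : ZMod (q ^ j)) ^ c ∣ ((p : ℕ) : ZMod (q ^ j))) : q = p ∧ c = 1 := by
  have hne : NeZero (q ^ j) := ⟨pow_ne_zero _ hq.out.ne_zero⟩
  obtain ⟨y, hy⟩ := h
  have h1 : ((p : ℕ) : ZMod (q ^ j)) = ((q ^ c * y.val : ℕ) : ZMod (q ^ j)) := by
    push_cast
    rw [hy, ZMod.natCast_zmod_val]
  rw [ZMod.natCast_eq_natCast_iff] at h1
  have h2 : q ^ c ∣ p := by
    have h3 : p ≡ q ^ c * y.val [MOD q ^ c] := h1.of_dvd (pow_dvd_pow q hcj)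
    have h4 : q ^ c * y.val ≡ 0 [MOD q ^ c] := (Nat.modEq_zero_iff_dvd).2 (dvd_mul_right _ _)
    exact (Nat.modEq_zero_iff_dvd).1 (h3.trans h4)
  have h5 : q = p := by
    have : q ∣ p := (dvd_pow_self q hc.ne').trans h2
    exact (Nat.prime_dvd_prime_iff_eq hq.out hp).1 this
  refine ⟨h5, ?_⟩
  subst h5
  have h6 : q ^ c ∣ q ^ 1 := by rwa [pow_one]
  have h7 := (Nat.pow_dvd_pow_iff_le_right hq.out.one_lt).1 h6
  omega

/-- **Block U.** -/
theorem blockU_of (hBF : BlockF) : BlockU := by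
  intro G _ hfg hFo m
  classical
  let I : Type := Σ q : {q : ℕ // q.Prime}, Σ j : ℕ, G →* GL (Fin m) (ZMod (q.1 ^ j))
  let ρI : ∀ i : I, G →* Matrix (Fin m) (Fin m) (ZMod (i.1.1 ^ i.2.1)) :=
    fun i => (Units.coeHom _).comp i.2.2
  obtain ⟨A, _, _, σ, π, hπ⟩ := exists_ring G hfg m (fun i : I => ZMod (i.1.1 ^ i.2.1)) ρI
  obtain ⟨Z, hZ⟩ := PrimeSpectrum.exists_primeSpectrum_prod_le A ⊥
  obtain ⟨t, ht⟩ : ∃ t, t = Z.card := ⟨_, rfl⟩
  choose H hH n hn using fun P => exists_data hBF hfg hFo σ t P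
  let H₀ : Subgroup G := ⨅ P ∈ Z.toFinset, H P
  have hH₀ : H₀.FiniteIndex := Subgroup.finiteIndex_iInf' _ fun P _ => hH P
  let n₀ : ℕ := Z.toFinset.sup n
  refine ⟨H₀.normalCore, inferInstance, inferInstance, n₀ + t, ?_⟩
  intro q hq j hj ρ x hx
  let i : I := ⟨⟨q, hq.out⟩, j, ρ⟩
  obtain ⟨P, hPZ, hv⟩ := exists_prime_val Z hZ hj (π i)
  have hP' : P ∈ Z.toFinset := Multiset.mem_toFinset.2 hPZ
  have hHP : H₀.normalCore ≤ H P :=
    (Subgroup.normalCore_le H₀).trans (iInf₂_le P hP')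
  have hnP : n P ≤ n₀ := Finset.le_sup hP'
  have htpos : 0 < t := by
    rw [ht]; exact Multiset.card_pos_iff_exists_mem.2 ⟨P, hPZ⟩
  rw [← ht] at hv
  rcases hn P with h | ⟨p, hp, hpP, hk⟩
  · -- characteristic zero
    have hE : der H₀.normalCore n₀ ≤ CG ((Units.coeHom _).comp ρ)
        (Ideal.span {(q : ZMod (q ^ j)) ^ ((j - 1) / t + 1)}) := by
      intro g hg
      have h1 : g ∈ CG σ P.asIdeal := h (der_anti _ hnP (der_mono hHP n₀ hg))
      rw [mem_CG] at h1 ⊢
      intro a b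
      have h2 := hv _ (h1 a b)
      rw [Ideal.mem_span_singleton]
      have h3 : π i ((σ g - 1) a b) = (((Units.coeHom _).comp ρ) g - 1) a b := by
        rw [Matrix.sub_apply, map_sub, Matrix.sub_apply, hπ i g a b]
        congr 1
        simp only [Matrix.one_apply]
        split_ifs <;> simp
      rwa [h3] at h2
    have h1 := der_CG hE t
    rw [der_add] at h1
    have h2 : (Ideal.span {(q : ZMod (q ^ j)) ^ ((j - 1) / t + 1)}) ^ (t + 1) ≤ ⊥ := by
      rw [Ideal.span_singleton_pow, Ideal.span_singleton_le_iff_mem, Ideal.mem_bot, ← pow_mul]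
      have h3 : j ≤ ((j - 1) / t + 1) * (t + 1) := by
        have h4 : j - 1 < t * ((j - 1) / t + 1) := Nat.lt_mul_div_succ (j - 1) htpos
        have h5 : t * ((j - 1) / t + 1) ≤ ((j - 1) / t + 1) * (t + 1) := by
          rw [mul_comm]; exact Nat.mul_le_mul_left _ (Nat.le_succ t)
        omega
      have h6 : ((q ^ j : ℕ) : ZMod (q ^ j)) = 0 := ZMod.natCast_self _
      push_cast at h6
      exact pow_eq_zero_of_le h3 h6
    have h3 := CG_bot (CG_mono h2 (h1 hx))
    exact Units.ext h3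
  · have h1 := hv _ hpP
    rw [map_natCast] at h1
    have hcj : (j - 1) / t + 1 ≤ j := by
      have := Nat.div_le_self (j - 1) t
      omega
    obtain ⟨h2, h3⟩ := eq_of_dvd hp (Nat.succ_pos _) hcj h1
    have h4 : j ≤ t := by
      have h5 : (j - 1) / t = 0 := by omega
      have h6 := (Nat.div_eq_zero_iff).1 h5
      omega
    subst h2
    exact hk j h4 ρ x (hHP ((der_anti H₀.normalCore (Nat.zero_le _)) hx))

end Vale.Agent.P260.U
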